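import Vale.Agent.P281Z.St.Defs
import Vale.Agent.P281Z.Sc.Ord
import Vale.Agent.P281Z.Pb.Api
import Vale.Agent.P281Z.Mf.Fib

/-!
# P281Z, block START: from the projective space to the base
-/

open scoped Manifold ContDiff Topology
open Set Filter Function
open Vale.Agent.P272.K Vale.Agent.P285.H281.FD
open Vale.Agent.P277Z (Hol hol_const)
open Vale.Agent.P277Z.Slc (lin Snc)
open Vale.Agent.P277.HD (pull)

noncomputable section

namespace Vale.Agent.P281Z.St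

namespace Fs

variable {r : ℕ} {Z : Mf r} {B : Bd Z.X} {α : B.ι → Z.X → Cm (r + 1)} {S : PS r}
  {ψ : Z.X → S.P.X} {z₁ : Z.X}

/-- general points are isolated in their fibres -/
theorem iso [ConnectedSpace Z.X] (hG : GEN) (hB : IsLB r B) (h0 : ∀ b, ∀ z ∈ B.U b, α b z ≠ 0)
    (hψ : HolM r r ψ) (h : ∀ b, ∀ z ∈ B.U b, ψ z = S.pt (α b z)) (h1 : Imm r r ψ z₁) :
    ∃ Q, Thin r Q ∧ ∀ z ∉ Q, ∀ b, z ∈ B.U b → ∀ᶠ y in 𝓝 z,
      (∀ b', y ∈ B.U b' → ∃ c : ℂ, α b z = c • α b' y) → y = z := by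
  have k : Snc r (Empty.elim : Empty → Set Z.X) := fun x => ⟨Empty.elim, fun l => l.elim,
    fun l => l.1.elim, fun _ _ => linearIndependent_empty_type⟩
  obtain ⟨Q, a1, a2⟩ := hG r r Z S.P ψ Empty Empty.elim hψ k
  refine ⟨ψ ⁻¹' Q, Thin.pre_of_ex a1.an hψ
    ((imm_iff_sbm.1 h1).freq (hψ.at _) (a1.freq _)).exists, fun z a b c => ?_⟩
  obtain ⟨U, d, e⟩ := (imm_iff_sbm.2 ((a2 _ a).sbm hψ k rfl)).inj (hψ.at z)
  filter_upwards [d, lb_near hB c] with y f g j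
  refine e f (mem_of_mem_nhds d) ?_
  rw [h b y g, h b z c]
  exact ((S.pt_eq_iff (h0 b z c) (h0 b y g)).2 (j b g)).symm

/-- general points are not mapped into a given hypersurface -/
theorem cone [ConnectedSpace Z.X] (hB : IsLB r B) (hα : ∀ l, IsSec r B fun b z => α b z l)
    (h0 : ∀ b, ∀ z ∈ B.U b, α b z ≠ 0) (hψ : HolM r r ψ)
    (h : ∀ b, ∀ z ∈ B.U b, ψ z = S.pt (α b z)) (h1 : Imm r r ψ z₁) {e : ℕ} {f : Cm (r + 1) → ℂ}
    (f1 : ∀ v, AnalyticAt ℂ f v) (f2 : ∀ (c : ℂ) v, f (c • v) = c ^ e * f v) (f3 : ∃ v, f v ≠ 0) :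
    ∃ H, Thin r H ∧ ∀ z ∉ H, ∀ b, z ∈ B.U b → f (α b z) ≠ 0 := by
  have k : ∀ z b, z ∈ B.U b → f (α b z) = 0 → ∀ b', z ∈ B.U b' → f (α b' z) = 0 :=
    fun z b a c b' d => by
      rw [show α b' z = B.g b' b z • α b z from funext fun l => (hα l).change b' b z d a, f2, c,
        mul_zero]
  refine ⟨{z | ∀ b, z ∈ B.U b → f (α b z) = 0}, An.thin (fun z => ?_) fun a => ?_,
    fun z a b c d => a (k z b c d)⟩
  · obtain ⟨b, a⟩ := hB.cover z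
    exact ⟨1, fun _ y => f (α b y), fun _ => (AnV.pi fun l => sec_hol (hα l) a).cmp (f1 _),
      (lb_near hB a).mono fun y c => ⟨fun d _ => d b c, fun d => k y b c (d 0)⟩⟩
  · obtain ⟨b, c⟩ := hB.cover z₁
    obtain ⟨v, d⟩ := f3
    have g : ∀ᶠ w in 𝓝 (S.pt (α b z₁)), ∃ y, True ∧ ψ y = w :=
      h b z₁ c ▸ (imm_iff_sbm.1 h1).ev (hψ.at _) (.of_forall fun _ => trivial)
    refine d (congrFun (AnalyticOnNhd.eq_of_eventuallyEq (g := fun _ => 0) (z₀ := α b z₁)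
      (fun v _ => f1 v) analyticOnNhd_const ?_) v)
    filter_upwards [(S.cont _ (h0 b z₁ c)).eventually g, eventually_ne_nhds (h0 b z₁ c)]
      with w ⟨y, _, i⟩ j
    obtain ⟨b', l⟩ := hB.cover y
    obtain ⟨t, m⟩ := (S.pt_eq_iff j (h0 b' y l)).1 (i.symm.trans (h b' y l))
    rw [m, f2, (a.ge (mem_univ y)) b' l, mul_zero]

end Fs

/-- the statement without poles -/
theorem fins0 (h1 : PRJ) (h2 : CORE) (h3 : Pb.PSEX) (h4 : GEN) (h5 : Gr.EMBF) {n r : ℕ} {V : Mf n}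
    {Z : Mf r} {γ : V.X → Z.X} {A : Bd Z.X} {L : Bd V.X} [ConnectedSpace Z.X] (hγ : HolM n r γ)
    (hA : IsLB r A) (hp : Pos r A) (hL : IsLB n L) :
    ∃ S, Neg r S ∧ ∀ z ∉ S, ∀ (d : ℕ) (F : Mf d) (i : F.X → V.X), Emb d n i (γ ⁻¹' {z}) →
      ∀ t, IsSec d (pull i L) t → ∃ a₀ : ℕ, ∀ a ≥ a₀, ∀ b, z ∈ A.U b →
        ∃ s, IsSec n (L.mul (pull γ (A.pow a))) s ∧ ∀ x j, i x ∈ L.U j → s (j, b) (i x) = t j x := by
  classical
  obtain ⟨k, α, k1, k2, k3, k4⟩ := h1 r Z A inferInstance hA hp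
  obtain ⟨S⟩ := h3 r
  obtain ⟨ψ, p1, p2⟩ := S.lift_sec (lb_pow hA k) k2 k3
  obtain ⟨z₁, p3⟩ := k4 S ψ p2
  obtain ⟨Q, q1, q2⟩ := Fs.iso h4 (lb_pow hA k) k3 p1 p2 p3
  choose e h e1 e2 e3 e4 using fun j => h2 n r V (L.mul (pull γ (A.pow j))) (pull γ (A.pow k))
    (fun b x => α b (γ x)) (lb_mul hL (hγ.lb (lb_pow hA j))) (hγ.lb (lb_pow hA k))
    (fun l => hγ.sec (k2 l)) fun b x => k3 b (γ x)
  choose H r1 r2 using fun j => Fs.cone (lb_pow hA k) k2 k3 p1 p2 p3 (e1 j) (e2 j) (e3 j)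
  refine ⟨Q ∪ ⋃ j, H j, q1.neg.union (.iUnion fun j => (r1 j).neg), fun z hz d F i hi t ht => ?_⟩
  obtain ⟨b₀, hb⟩ := hA.cover z
  choose T u1 using fun (j : L.ι) (x : V.X) => show ∃ v : ℂ, (∀ w, i w = x → v = t j w) ∧
      (γ x ≠ z → v = 0) from by
    by_cases a : γ x = z
    · obtain ⟨w, rfl⟩ := hi.ex a
      exact ⟨t j w, fun w' c => by rw [hi.inj c], fun c => (c a).elim⟩
    · exact ⟨0, fun w c => (a (c ▸ hi.mem w)).elim, fun _ => rfl⟩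
  choose m₀ u2 using fun j => e4 j (α b₀ z) (k3 b₀ z hb)
    (r2 j z (fun a => hz (.inr (mem_iUnion.2 ⟨j, a⟩))) b₀ hb)
    (fun q x => T q.1 x * A.g q.2 b₀ z ^ j) fun x a => by
      by_cases c : γ x = z
      · obtain ⟨w, rfl⟩ := hi.ex c
        refine ⟨fun q f => ?_, fun q q' f g => ?_⟩
        · obtain ⟨β, s1, s2⟩ := (h5 d n F V i _ hi w).1 _ (sec_hol ht f.1)
          refine ⟨_, s1.mul (hol_const (A.g q.2 b₀ z ^ j) _), ?_⟩
          have s0 : Tendsto γ (𝓝 (i w)) (𝓝 z) := c ▸ hγ.cont.tendsto _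
          filter_upwards [s2, s0.eventually (q2 z (fun a => hz (.inl a)) b₀ hb)] with y s3 s4 s5
          obtain ⟨w', s6⟩ := hi.ex (s4 s5)
          exact congrArg (· * _) (((u1 _ y).1 w' s6).trans (s3 w' s6))
        · obtain ⟨l, β⟩ := q
          obtain ⟨l', β'⟩ := q'
          change T l (i w) * A.g β b₀ z ^ j = L.g l l' (i w) * A.g β β' (γ (i w)) ^ j *
            (T l' (i w) * A.g β' b₀ z ^ j)
          rw [(u1 _ _).1 w rfl, (u1 _ _).1 w rfl, ht.change l l' w f.1 g.1, mul_mul_mul_comm,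
            ← mul_pow, c, hA.cocycle β β' b₀ z (c ▸ f.2) (c ▸ g.2) hb]
          rfl
      · have s0 : ∀ (l : L.ι) (v : ℂ) y, γ y ≠ z → T l y * v = 0 := fun l v y s1 => by
          rw [(u1 _ _).2 s1, zero_mul]
        exact ⟨fun q _ => ⟨_, hol_const 0 x, (hγ.cont.continuousAt.eventually_ne c).mono
          fun y s1 _ => s0 _ _ y s1⟩, fun q q' _ _ => (s0 _ _ x c).trans
            ((congrArg (_ * ·) (s0 _ _ x c)).trans (mul_zero _)).symm⟩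
  refine ⟨k * (Finset.range k).sup m₀, fun a ha b hb' => ?_⟩
  obtain ⟨s, s1, s2⟩ := u2 (a % k) (a / k)
    ((Finset.le_sup (Finset.mem_range.2 (Nat.mod_lt a k1))).trans
      ((Nat.le_div_iff_mul_le k1).2 (by rwa [mul_comm])))
  refine ⟨fun q x => s (q, q.2) x * A.g b₀ b z ^ a, isSec_of (fun q x c =>
    (sec_hol s1 (a := (q, q.2)) ⟨c, c.2⟩).mul (hol_const _ x)) fun q q' x c f => ?_,
    fun x j c => ?_⟩
  · rw [s1.change (q, q.2) (q', q'.2) x ⟨c, c.2⟩ ⟨f, f.2⟩, ← mul_assoc]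
    change L.g _ _ x * A.g _ _ _ ^ (a % k) * (A.g _ _ _ ^ k) ^ (a / k) * _ * _ =
      L.g _ _ x * A.g _ _ _ ^ a * _ * _
    rw [← pow_mul, mul_assoc (L.g _ _ x), ← pow_add, Nat.mod_add_div]
  · have f : γ (i x) = z := hi.mem x
    have g := s2 (i x) (j, b) b (A.g b₀ b z ^ k) ⟨c, show γ (i x) ∈ A.U b from f.symm ▸ hb'⟩
      (show γ (i x) ∈ A.U b from f.symm ▸ hb')
      (by rw [f]; exact funext fun l => (k2 l).change b₀ b z hb hb')
    have l : A.g b₀ b z ^ a = (A.g b₀ b z ^ k) ^ (a / k) * A.g b₀ b z ^ (a % k) := by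
      rw [← pow_mul, ← pow_add, Nat.div_add_mod]
    change s ((j, b), b) (i x) * A.g b₀ b z ^ a = _
    rw [l, ← mul_assoc, g, (u1 _ _).1 x rfl, mul_assoc,
      ← mul_pow, hA.cocycle _ _ _ z hb' hb hb', lb_self hA hb', one_pow, mul_one]

theorem fins : FINS := by
  intro h1 h2 h3 h4 h5 n r V Z γ A L κ _ G c _ hγ hA hp hL hG
  obtain ⟨D, σ, hD⟩ := (Hyp.of_snc hG).exists_div
  have hN := lb_lin (fun l => (hD l).lb) fun l => ⌊c l⌋
  obtain ⟨S, a1, a2⟩ := fins0 h1 h2 h3 h4 h5 hγ hA hp (lb_mul hL hN)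
  obtain ⟨Q, b1, b2⟩ := h4 n r V Z γ κ G hγ hG
  refine ⟨S ∪ Q, a1.union b1.neg, fun z hz d F i hi t ht => ?_⟩
  have hR := b2 z fun a => hz (.inr a)
  obtain ⟨t', c1, c2, c3⟩ := ht.twist hi.hol
    (fun x => (hG (i x)).elim fun ζ a => ⟨ζ, a.1, hR.leq hγ hi a.1⟩) (hR.snc hγ hG hi) hD
    (hi.hol.lb hL) isOpen_univ fun l => Int.lt_floor_add_one (c l)
  obtain ⟨a₀, d1⟩ := a2 z (fun a => hz (.inl a)) d F i hi t'
    (isSec_of (fun a x => c1 a x trivial) fun a b x => c2 a b x trivial)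
  refine ⟨a₀, fun a ha b hb => ?_⟩
  obtain ⟨s', e1, e2⟩ := d1 a ha b hb
  obtain ⟨s, f1, f2⟩ := SecP.untwist (k := fun l => ⌊c l⌋) (c := fun _ => 0) holM_id hD
    (lb_mul hL (hγ.lb (lb_pow hA a))) isOpen_univ (t := fun q => s' ((q.1.1, q.2), q.1.2))
    (secP_of_hol continuous_id (fun q x _ f => sec_hol e1 ⟨⟨f.1.1, f.2⟩, f.1.2⟩)
      (fun q q' x _ f g => (e1.change ((q.1.1, q.2), q.1.2) ((q'.1.1, q'.2), q'.1.2) x
        ⟨⟨f.1.1, f.2⟩, f.1.2⟩ ⟨⟨g.1.1, g.2⟩, g.1.2⟩).trans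
          (congrArg (· * _) (mul_right_comm _ _ _))) fun _ => le_rfl)
  refine ⟨s, f1.mono continuous_id fun l => by simpa using Int.floor_le (c l), fun x j f g => ?_⟩
  obtain ⟨δ, hδ⟩ := hN.cover (i x)
  have k : γ (i x) = z := hi.mem x
  exact mul_right_cancel₀ ((secP_div (O := univ) hi.hol hD _).2 x f δ hδ)
    ((f2 (j, b) δ (i x) trivial ⟨g, show γ (i x) ∈ A.U b from k.symm ▸ hb⟩ hδ f).symm.trans
      ((e2 x (j, δ) ⟨g, hδ⟩).trans (c3 j δ x trivial g hδ f)))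

end Vale.Agent.P281Z.St
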