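import Vale.Agent.P281Z.St.Defs
import Vale.Agent.P281Z.Pb.Api
import Vale.Agent.P277.H622.B2

/-!
# P281Z, block START: a generically finite map to the projective space
-/

open scoped Manifold ContDiff Topology
open Set Filter
open Vale.Agent.P272.K Vale.Agent.P285.H281.FD
open Vale.Agent.P277Z (Hol at_chart)
open Vale.Agent.P277Z.Slc (dd)

noncomputable section

namespace Vale.Agent.P281Z.St

namespace Prj

variable {r N : ℕ} {X : Type} [TopologicalSpace X] [ChartedSpace (Cm r) X]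

theorem ratio {s : X → Cm N} {y : X} (hs : ∀ a, Hol r (fun y => s y a) y) {l : Fin N}
    (hl : s y l ≠ 0) {e : Chart r X} (he : At e y) (ξ : Cm r) :
    (∀ j, dd (fun y => s y j / s y l) e y ξ = 0) ↔
      ∃ c : ℂ, fderiv ℂ (fun z => s (e.symm z)) (e y) ξ = c • s y := by
  have h1 : ∀ a, fderiv ℂ (fun z => s (e.symm z)) (e y) ξ a = dd (fun y => s y a) e y ξ :=
    fun a => by rw [fderiv_pi fun a => (hs a e he).differentiableAt]; rfl
  have h2 : ∀ j, fderiv ℂ (fun z => s (e.symm z)) (e y) ξ j = s y j / s y l *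
      fderiv ℂ (fun z => s (e.symm z)) (e y) ξ l + s y l * dd (fun y => s y j / s y l) e y ξ :=
    fun j => by
      rw [h1, h1, P277Z.Slc.dd_congr (b := fun y => s y j / s y l * s y l)
        (((hs l).ne_near hl).mono fun y h => (div_mul_cancel₀ _ h).symm) he, dd, fderiv_fun_mul
        ((hs j).div (hs l) hl e he).differentiableAt (hs l e he).differentiableAt, he.left_inv]
      rfl
  refine ⟨fun h => ⟨fderiv ℂ (fun z => s (e.symm z)) (e y) ξ l / s y l, funext fun j => ?_⟩,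
    fun ⟨c, h⟩ j => mul_left_cancel₀ hl ?_⟩
  · rw [h2 j, h j, Pi.smul_apply, smul_eq_mul]
    ring
  · have h3 := h2 j
    rw [h, Pi.smul_apply, Pi.smul_apply, smul_eq_mul, smul_eq_mul, mul_left_comm,
      div_mul_cancel₀ _ hl] at h3
    rw [mul_zero, ← add_right_inj (c * s y j), ← h3, add_zero]

variable (r) in
/-- a linear system without base points which gives an immersion at `z₀` -/
structure Sys (B : Bd X) (b₀ : B.ι) (z₀ : X) (α : B.ι → X → Cm N) : Prop where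
  sec : ∀ l, IsSec r B fun b z => α b z l
  nz : ∀ b, ∀ z ∈ B.U b, α b z ≠ 0
  imm : ∀ ξ ≠ 0, ∀ c : ℂ, fderiv ℂ (fun w => α b₀ ((chartAt (Cm r) z₀).symm w))
    (chartAt (Cm r) z₀ z₀) ξ ≠ c • α b₀ z₀

theorem finrank_cm (n : ℕ) : Module.finrank ℝ (Cm n) = 2 * n := by
  rw [Module.finrank_pi_fintype ℝ]
  simp [Complex.finrank_real_complex, mul_comm]

theorem avoid {ι : Type} [Countable ι] (hr : r ≤ N) {O : ι → Set (ℂ × Cm r)}
    {g : ι → ℂ × Cm r → Cm (N + 2)} (hO : ∀ i, IsOpen (O i))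
    (hg : ∀ i, ∀ q ∈ O i, AnalyticAt ℂ (g i) q) : ∃ v, ∀ i, ∀ q ∈ O i, g i q ≠ v := by
  have h : Dense (⋃ i, g i '' O i)ᶜ := by
    refine dense_compl_of_dimH_lt_finrank ?_
    rw [dimH_iUnion, finrank_cm]
    refine (iSup_le fun i => P277.H622.dimH_image_open_le (hO i) fun q hq =>
      ((hg i q hq).restrictScalars (𝕜 := ℝ)).contDiffAt.contDiffWithinAt).trans_lt ?_
    rw [Module.finrank_prod, finrank_cm, Complex.finrank_real_complex]
    exact_mod_cast (by omega : 2 + 2 * r < 2 * (N + 2))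
  obtain ⟨v, hv⟩ := h.nonempty
  exact ⟨v, fun i q hq k => hv (mem_iUnion.2 ⟨i, q, hq, k⟩)⟩

theorem proj {v : Cm (N + 1)} (hv : v ≠ 0) :
    ∃ Λ : Cm (N + 1) →L[ℂ] Cm N, ∀ w, Λ w = 0 → ∃ c : ℂ, w = c • v := by
  obtain ⟨l, hl⟩ := Function.ne_iff.1 hv
  refine ⟨.pi fun j => v l • .proj (l.succAbove j) - v (l.succAbove j) • .proj l, fun w hw =>
    ⟨w l / v l, funext fun a => ?_⟩⟩
  rw [Pi.smul_apply, smul_eq_mul, div_mul_eq_mul_div, eq_div_iff hl]
  induction a using Fin.succAboveCases l with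
  | x => rfl
  | p j =>
    have h : v l * w (l.succAbove j) - v (l.succAbove j) * w l = 0 := congrFun hw j
    linear_combination h

variable {B : Bd X} {b₀ : B.ι} {z₀ : X}

theorem Sys.an {α : B.ι → X → Cm N} (h : Sys r B b₀ z₀ α) {b : B.ι} {z : X} (hz : z ∈ B.U b) :
    AnV r (α b) z := AnV.pi fun a e he => ((h.sec a).holo b e z he hz).analyticAt

theorem Sys.chg {α : B.ι → X → Cm N} (h : Sys r B b₀ z₀ α) {b b' : B.ι} {z : X} (hz : z ∈ B.U b)
    (hz' : z ∈ B.U b') : α b z = B.g b b' z • α b' z :=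
  funext fun a => (h.sec a).change b b' z hz hz'

theorem step [SecondCountableTopology X] (hO : ∀ b, IsOpen (B.U b)) (hB : ∀ z, ∃ b, z ∈ B.U b)
    (h0 : z₀ ∈ B.U b₀) (hr : r ≤ N) {α : B.ι → X → Cm (N + 2)} (h : Sys r B b₀ z₀ α) :
    ∃ α' : B.ι → X → Cm (N + 1), Sys r B b₀ z₀ α' := by
  choose β hβ using hB
  obtain ⟨t, ht, hc⟩ := TopologicalSpace.countable_cover_nhds
    (f := fun z => (chartAt (Cm r) z).source ∩ B.U (β z)) fun z =>
      inter_mem (chart_source_mem_nhds _ z) ((hO _).mem_nhds (hβ z))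
  have := ht.to_subtype
  set D := fderiv ℂ (fun w => α b₀ ((chartAt (Cm r) z₀).symm w)) (chartAt (Cm r) z₀ z₀) with hD
  obtain ⟨v, hv⟩ := avoid (ι := Option t) hr
    (O := fun i => i.elim univ fun z => univ ×ˢ ((chartAt (Cm r) z.1).target ∩
      (chartAt (Cm r) z.1).symm ⁻¹' B.U (β z)))
    (g := fun i => i.elim (fun q => D q.2 - q.1 • α b₀ z₀) fun z q =>
      q.1 • α (β z) ((chartAt (Cm r) z.1).symm q.2))
    (Option.rec isOpen_univ fun z => isOpen_univ.prod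
      ((chartAt (Cm r) z.1).isOpen_inter_preimage_symm (hO _)))
    (Option.rec (fun q _ => ((D.analyticAt _).comp analyticAt_snd).sub
      (analyticAt_fst.smul analyticAt_const)) fun z q hq => analyticAt_fst.smul (by
        have h1 := h.an hq.2.2 _ ⟨(at_chart z.1).1, (chartAt (Cm r) z.1).map_target hq.2.1⟩
        rw [(chartAt (Cm r) z.1).right_inv hq.2.1] at h1
        exact h1.comp analyticAt_snd))
  obtain ⟨Λ, hΛ⟩ := proj (v := v) fun k => hv none 0 (mem_univ _) (by simp [k])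
  refine ⟨fun b z => Λ (α b z), fun l => ⟨fun b e z he hz =>
    (((h.an hz).cmp (Λ.analyticAt _)).hol l e he).contDiffAt, fun b b' z hz hz' => by
      rw [h.chg hz hz', map_smul]; rfl⟩, fun b z hz k => ?_, fun ξ hξ c k => ?_⟩
  · obtain ⟨c, hc'⟩ := hΛ _ k
    obtain ⟨y, hy, k1, k2⟩ := mem_iUnion₂.1 (hc.ge (mem_univ z))
    have k3 := (chartAt (Cm r) y).left_inv k1
    refine hv (some ⟨y, hy⟩) (c⁻¹ * B.g b (β y) z, chartAt (Cm r) y z)
      ⟨mem_univ _, (chartAt (Cm r) y).map_source k1, by rw [mem_preimage, k3]; exact k2⟩ ?_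
    show (c⁻¹ * B.g b (β y) z) • α (β y) ((chartAt (Cm r) y).symm (chartAt (Cm r) y z)) = v
    rw [k3, mul_smul, ← h.chg hz k2, hc', inv_smul_smul₀ fun k4 =>
      h.nz b z hz (by rw [hc', k4, zero_smul])]
  · rw [fderiv_fun_comp _ Λ.differentiableAt (h.an h0 _ (at_chart z₀)).differentiableAt,
      Λ.fderiv, ContinuousLinearMap.comp_apply, ← map_smul, ← sub_eq_zero, ← map_sub] at k
    obtain ⟨a, ha⟩ := hΛ _ k
    refine hv none (a⁻¹ * c, a⁻¹ • ξ) (mem_univ _) ?_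
    show D (a⁻¹ • ξ) - (a⁻¹ * c) • α b₀ z₀ = v
    rw [map_smul, mul_smul, ← smul_sub, ha, inv_smul_smul₀ fun k4 =>
      h.imm ξ hξ c (sub_eq_zero.1 (by rw [ha, k4, zero_smul]))]

theorem down [SecondCountableTopology X] (hO : ∀ b, IsOpen (B.U b)) (hB : ∀ z, ∃ b, z ∈ B.U b)
    (h0 : z₀ ∈ B.U b₀) (hr : r ≤ N) :
    ∀ α : B.ι → X → Cm (N + 1), Sys r B b₀ z₀ α →
      ∃ α' : B.ι → X → Cm (r + 1), Sys r B b₀ z₀ α' := by
  induction N, hr using Nat.le_induction with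
  | base => exact fun α h => ⟨α, h⟩
  | succ N hr ih => exact fun α h => let ⟨α', h'⟩ := step hO hB h0 hr h; ih α' h'

variable [IsManifold 𝓘(ℂ, Cm r) ω X]

theorem imm_iff (S : PS N) {s : X → Cm (N + 1)} (hs : AnV r s z₀) (h0 : s z₀ ≠ 0) :
    Imm r N (fun y => S.pt (s y)) z₀ ↔ ∀ ξ ≠ 0, ∀ c : ℂ, fderiv ℂ
      (fun w => s ((chartAt (Cm r) z₀).symm w)) (chartAt (Cm r) z₀ z₀) ξ ≠ c • s z₀ := by
  obtain ⟨l, hl⟩ := Function.ne_iff.1 h0
  rw [S.imm_iff hs.hol hl (at_chart z₀)]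
  exact forall₂_congr fun ξ _ => by
    rw [← not_forall, ratio hs.hol hl (at_chart z₀), not_exists]

end Prj

theorem prj_of (hK : Pb.KODE) (hS : Pb.PSEX) : PRJ := by
  intro r Z A ⟨z₀⟩ hA hP
  obtain ⟨k, N, s, hk, hs, h0, hφ⟩ := hK r Z A hA hP
  obtain ⟨S⟩ := hS N
  obtain ⟨φ, hE, hφ⟩ := hφ S
  obtain ⟨b₀, hb⟩ := hA.cover z₀
  have hn := (hA.isOpen b₀).eventually_mem hb
  obtain ⟨α, hα⟩ := Prj.down (B := A.pow k) (b₀ := b₀) hA.isOpen hA.cover hb (hE.imm z₀).le s ⟨hs, h0,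
    (Prj.imm_iff S (AnV.pi fun a e he => ((hs a).holo b₀ e z₀ he hb).analyticAt) (h0 _ _ hb)).1
      ((hE.imm z₀).cng (hn.mono fun y hy => hφ b₀ y hy))⟩
  exact ⟨k, α, hk, hα.sec, hα.nz, fun S ψ hψ => ⟨z₀,
    ((Prj.imm_iff S (hα.an hb) (hα.nz _ _ hb)).2 hα.imm).cng
      (hn.mono fun y hy => (hψ b₀ y hy).symm)⟩⟩

end Vale.Agent.P281Z.St
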