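import Vale.Agent.P281Z.St.Core
import Vale.Agent.P281Z.St.Fins
import Vale.Agent.P281Z.St.Prj
import Vale.Agent.P281Z.Gr.Main
import Vale.Agent.P281Z.Pb.Ex
import Vale.Agent.P281Z.Pb.Kode
import Vale.Agent.P281Z.Pb.Ps

/-!
# P281Z, block START: assembly
-/

namespace Vale.Agent.P281Z.St

theorem prj : PRJ := prj_of Pb.kode Pb.psex

theorem start_of (h : GEN) : START :=
  fins prj (core_of Gr.gr1 h Pb.pbex Pb.psex) Pb.psex h Gr.embf

end Vale.Agent.P281Z.St
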