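import Vale.Agent.P281Z.St.CoreA
import Vale.Agent.P281Z.Pb.Api2
import Vale.Agent.P277Z.Pj.SolveA

/-!
# P281Z, block START: extension from the general fibres of a map to the projective space
-/

open scoped Manifold ContDiff Topology Matrix
open Set Filter Metric
open Vale.Agent.P272.K Vale.Agent.P285.H281.FD
open Vale.Agent.P277Z (Hol Nz at_chart hol_const)
open Vale.Agent.P277Z.Pj.Sv (cf cf_comp cf_congr an_cf)
open Vale.Agent.P277.HD (pull)

noncomputable section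

namespace Vale.Agent.P281Z.St.Co

variable {n r : ℕ} {V : Mf n} {L B : Bd V.X} {α : B.ι → V.X → Cm (r + 1)} {τ : Cm (r + 1)}

theorem lb_dual (hB : IsLB n B) : IsLB n ⟨B.ι, B.U, fun b b' x => B.g b' b x⟩ where
  isOpen := hB.isOpen
  cover := hB.cover
  holo i j e x he hi hj := hB.holo j i e x he hj hi
  ne_zero i j x hi hj := hB.ne_zero j i x hj hi
  cocycle i j k x hi hj hk := (mul_comm _ _).trans (hB.cocycle k j i x hk hj hi)

/-- the sum of the trivial bundle and the dual of `B` -/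
def vb (hB : IsLB n B) : VB (1 + 1) V := VB.wt (lb_dual hB) fun a => a

theorem vb_mv (hB : IsLB n B) (b b' : B.ι) (x : V.X) (v : Cm (1 + 1)) :
    (vb hB).T b b' x *ᵥ v = ![v 0, B.g b' b x * v 1] := by
  ext a
  refine (Matrix.mulVec_diagonal _ _ a).trans ?_
  fin_cases a <;> simp [Bd.pow]

theorem one_ne (l : ℂ) : (![1, l] : Cm (1 + 1)) ≠ 0 := fun h => one_ne_zero (congrFun h 0)

theorem cons_ne (τ : Cm (r + 1)) : (Fin.cons 1 τ : Cm (r + 1 + 1)) ≠ 0 :=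
  fun h => one_ne_zero (congrFun h 0)

theorem cons_smul (c a : ℂ) (τ : Cm (r + 1)) :
    c • (Fin.cons a τ : Cm (r + 1 + 1)) = Fin.cons (c * a) (c • τ) :=
  funext fun i => by induction i using Fin.cases <;> rfl

theorem an_cons (τ : Cm (r + 1)) :
    AnalyticAt ℂ (fun τ : Cm (r + 1) => (Fin.cons 1 τ : Cm (r + 1 + 1))) τ :=
  AnalyticAt.pi fun i => by
    induction i using Fin.cases
    · exact analyticAt_const
    · exact analyticAt_pi_iff.1 analyticAt_id _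

variable {hB : IsLB n B} (P : PB (vb hB) (n + 1)) (S : PS (r + 1))

/-- the affine part of the projective space -/
def af (τ : Cm (r + 1)) : S.P.X := S.pt (Fin.cons 1 τ)

theorem af_cont (τ : Cm (r + 1)) : ContinuousAt (af S) τ :=
  (S.cont _ (cons_ne τ)).comp (f := fun τ : Cm (r + 1) => (Fin.cons 1 τ : Cm (r + 1 + 1)))
    (an_cons τ).continuousAt

theorem af_an {g : S.P.X → ℂ} (hg : Hol (r + 1) g (af S τ)) :
    AnalyticAt ℂ (fun τ => g (af S τ)) τ :=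
  an_comp hg (af_cont S τ) ((S.an _ (cons_ne τ) _ (at_chart _)).fun_comp
    (f := fun τ : Cm (r + 1) => (Fin.cons 1 τ : Cm (r + 1 + 1))) (an_cons τ))

theorem af_ev {Q : S.P.X → Prop} (h : ∀ᶠ v in 𝓝 τ, Q (af S v)) : ∀ᶠ q in 𝓝 (af S τ), Q q := by
  obtain ⟨a, ha⟩ := S.lb.cover (af S τ)
  have h0 : S.x a (af S τ) 0 ≠ 0 := (S.x_ne_iff (cons_ne τ) ha 0).2 one_ne_zero
  have h1 : ContinuousAt (fun q => (fun i => S.x a q i.succ / S.x a q 0 : Cm (r + 1))) (af S τ) :=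
    continuousAt_pi.2 fun i => ((S.xhol ha _).div (S.xhol ha 0) h0).cont
  have h2 : (fun i => S.x a (af S τ) i.succ / S.x a (af S τ) 0 : Cm (r + 1)) = τ :=
    funext fun i => (S.ratio (cons_ne τ) ha _ _).trans (div_one _)
  rw [ContinuousAt, h2] at h1
  filter_upwards [h1.eventually h, (S.xhol ha 0).ne_near h0, lb_near S.lb ha] with q k1 k2 k3
  rwa [af, show (Fin.cons 1 fun i => S.x a q i.succ / S.x a q 0 : Cm (r + 1 + 1)) =
    (S.x a q 0)⁻¹ • S.x a q from funext fun i => by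
      induction i using Fin.cases
      · exact (inv_mul_cancel₀ k2).symm
      · exact div_eq_inv_mul _ _, S.pt_x a q _ k3 (inv_ne_zero k2)] at k1

theorem pt_chg {b b' : B.ι} {x : V.X} (hb : x ∈ B.U b) (hb' : x ∈ B.U b') (l : ℂ) :
    P.pt b x ![1, l] = P.pt b' x ![1, B.g b b' x * l] := by
  rw [← P.pt_chg (i := b') (j := b) hb' hb (one_ne l), vb_mv]
  rfl

/-- the map to the projective space -/
theorem map_ex (hα : ∀ l, IsSec n B fun b x => α b x l) (h0 : ∀ b, ∀ x ∈ B.U b, α b x ≠ 0) :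
    ∃ f : P.P.X → S.P.X, HolM (n + 1) (r + 1) f ∧
      (∀ b, ∀ x ∈ B.U b, ∀ l : ℂ, f (P.pt b x ![1, l]) = af S (l • α b x)) ∧
      ∀ p τ, f p = af S τ → ∀ b, P.pr p ∈ B.U b → ∃ l : ℂ, τ = l • α b (P.pr p) := by
  have k0 : ∀ (q : P.H.ι × B.ι), ∀ p ∈ P.H.U q.1 ∩ P.pr ⁻¹' B.U q.2,
      (Fin.cons (P.x q.2 q.1 p 0) (P.x q.2 q.1 p 1 • α q.2 (P.pr p)) : Cm (r + 1 + 1)) ≠ 0 := by
    intro q p hp k
    refine P.xnz q.2 q.1 p hp.2 hp.1 (funext fun a => ?_)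
    fin_cases a
    · exact congrFun k 0
    · exact (smul_eq_zero.1 (funext fun i => congrFun k i.succ)).resolve_right (h0 _ _ hp.2)
  obtain ⟨f, h1, h2⟩ := S.lift (m := n + 1) (κ := P.H.ι × B.ι)
    (O := fun q => P.H.U q.1 ∩ P.pr ⁻¹' B.U q.2)
    (fun q => (P.lb.isOpen _).inter ((hB.isOpen _).preimage P.hol.cont))
    (fun p => let ⟨h, k⟩ := P.lb.cover p; let ⟨b, k'⟩ := hB.cover (P.pr p); ⟨(h, b), k, k'⟩)
    (s := fun q p => Fin.cons (P.x q.2 q.1 p 0) (P.x q.2 q.1 p 1 • α q.2 (P.pr p)))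
    (fun q p hp a => by
      induction a using Fin.cases
      · exact P.xhol q.2 q.1 p hp.2 hp.1 0
      · exact (P.xhol q.2 q.1 p hp.2 hp.1 1).mul (P.hol.hol (sec_hol (hα _) hp.2))) k0
    fun q q' p k k' => ⟨P.H.g q.1 q'.1 p, by
      rw [P.xH q.2 q.1 q'.1 p k.2 k.1 k'.1, P.xE q.2 q'.2 q'.1 p k.2 k'.2 k'.1, vb_mv,
        al_chg hα k'.2 k.2, cons_smul, smul_smul, smul_smul]
      exact congrArg₂ Fin.cons rfl (congrArg (· • _) (by simp; ring))⟩
  refine ⟨f, h1, fun b x hb l => ?_, fun p τ hp b hb => ?_⟩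
  · obtain ⟨h, k⟩ := P.lb.cover (P.pt b x ![1, l])
    obtain ⟨c, hc, k1⟩ := P.x_pt' (i := b) hb (one_ne l) k
    rw [h2 (h, b) _ ⟨k, P.pt_mem (i := b) (j := b) hb hb⟩, af, ← S.pt_smul hc (cons_ne _),
      cons_smul, smul_smul, k1, P.pr_pt b x hb]
    rfl
  · obtain ⟨h, k⟩ := P.lb.cover p
    rw [h2 (h, b) p ⟨k, hb⟩, eq_comm] at hp
    obtain ⟨c, hc⟩ := (S.pt_eq_iff (cons_ne τ) (k0 (h, b) p ⟨k, hb⟩)).1 hp
    exact ⟨c * P.x b h p 1, by rw [← smul_smul]; exact funext fun i => congrFun hc i.succ⟩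

theorem an_one {E : Type} [NormedAddCommGroup E] [NormedSpace ℂ E] {f : E → ℂ} {z : E}
    (h : AnalyticAt ℂ f z) : AnalyticAt ℂ (fun z => (![1, f z] : Cm (1 + 1))) z :=
  AnalyticAt.pi fun a => by
    fin_cases a
    · exact analyticAt_const
    · exact h

/-- joint analyticity -/
theorem an_pt {a : P.P.X → ℂ} {b : B.ι} {x : V.X} {l : ℂ} (hb : x ∈ B.U b) {e : Chart n V.X}
    (he : At e x) (ha : Hol (n + 1) a (P.pt b x ![1, l])) :
    AnalyticAt ℂ (fun q : Cm n × ℂ => a (P.pt b (e.symm q.1) ![1, q.2])) (e x, l) := by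
  have h1 : AnalyticAt ℂ (fun q : Cm n × ℂ => (q.1, (![1, q.2] : Cm (1 + 1)))) (e x, l) :=
    analyticAt_fst.prod (an_one analyticAt_snd)
  refine an_comp (N := n + 1) (Ψ := fun q : Cm n × ℂ => P.pt b (e.symm q.1) ![1, q.2])
    (by rwa [he.left_inv]) ?_ ?_
  · refine ContinuousAt.comp (f := fun q : Cm n × ℂ => (e.symm q.1, (![1, q.2] : Cm (1 + 1))))
      (g := fun q : V.X × Cm (1 + 1) => P.pt b q.1 q.2)
      (by rw [he.left_inv]; exact P.cont b x hb _ (one_ne l)) ?_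
    exact ((e.continuousAt_symm he.mem_target).comp (f := Prod.fst) continuousAt_fst).prodMk
      h1.continuousAt.snd
  · exact (P.an b x hb _ (one_ne l) e (chartAt _ (P.pt b (e.symm (e x)) ![1, l])) he
      (by rw [he.left_inv]; exact at_chart _)).fun_comp
      (f := fun q : Cm n × ℂ => (q.1, (![1, q.2] : Cm (1 + 1)))) h1

theorem an_pt' {a : P.P.X → ℂ} {b : B.ι} {x : V.X} {l : ℂ} (hb : x ∈ B.U b)
    (ha : Hol (n + 1) a (P.pt b x ![1, l])) : AnalyticAt ℂ (fun l => a (P.pt b x ![1, l])) l := by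
  have he := at_chart (n := n) x
  simpa only [he.left_inv] using (an_pt P hb he ha).fun_comp (f := fun l : ℂ => (chartAt _ x x, l))
    (analyticAt_const.prod analyticAt_id)

/-- the Taylor expansion along the fibres -/
theorem taylor (h0 : ∀ b, ∀ x ∈ B.U b, α b x ≠ 0) {O : Set P.P.X} {ε : ℝ}
    (hε : 0 < ε) (hO : ∀ b, ∀ x ∈ B.U b, ∀ l : ℂ, ‖l • α b x‖ < ε → P.pt b x ![1, l] ∈ O)
    {s : L.ι → P.P.X → ℂ} (hs : Gr.SecOn (n + 1) (pull P.pr L) O s) :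
    ∃ c : ℕ → L.ι × B.ι → V.X → ℂ, (∀ a, IsSec n (L.mul (B.pow a)) (c a)) ∧
      ∀ j b x (l : ℂ), x ∈ L.U j → x ∈ B.U b → ‖l • α b x‖ < ε →
        HasSum (fun a => c a (j, b) x * l ^ a) (s j (P.pt b x ![1, l])) := by
  have h1 : ∀ {j b x} (l : ℂ), x ∈ L.U j → x ∈ B.U b → P.pt b x ![1, l] ∈ (pull P.pr L).U j :=
    fun {j b x} l hj hb => by
      show P.pr _ ∈ L.U j
      rwa [P.pr_pt b x hb]
  refine ⟨fun a q x => cf a fun l => s q.1 (P.pt q.2 x ![1, l]), fun a => isSec_of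
    (fun q x hx e he => an_cf a (an_pt P hx.2 he (hs.hol _ (hO _ x hx.2 0 (by simpa)) _
      (h1 0 hx.1 hx.2)))) fun q q' x hx hx' => ?_, fun j b x l hj hb hl => ?_⟩
  · have h2 : ∀ᶠ l : ℂ in 𝓝 0, ‖l • α q.2 x‖ < ε :=
      (continuous_id.smul continuous_const).norm.continuousAt.eventually_lt continuousAt_const
        (by simpa)
    refine (cf_congr a (c := L.g q.1 q'.1 x)
      (g := fun l => s q'.1 (P.pt q'.2 x ![1, B.g q.2 q'.2 x * l])) (h2.mono fun l hl => ?_)).trans ?_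
    · rw [← pt_chg P hx.2 hx'.2]
      exact (hs.chg _ (hO _ x hx.2 l hl) q.1 q'.1 (h1 l hx.1 hx.2) (h1 l hx'.1 hx.2)).trans
        (congrArg (fun y => L.g q.1 q'.1 y * _) (P.pr_pt q.2 x hx.2 _))
    · rw [cf_comp a fun l => s q'.1 (P.pt q'.2 x ![1, l])]
      exact (mul_assoc _ _ _).symm
  · have h2 : ∀ l : ℂ, l ∈ ball (0 : ℂ) (ε / ‖α b x‖) ↔ ‖l • α b x‖ < ε := fun l => by
      rw [mem_ball_zero_iff, norm_smul, lt_div_iff₀ (norm_pos_iff.2 (h0 b x hb))]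
    have h3 := Complex.hasSum_taylorSeries_on_ball (f := fun l => s j (P.pt b x ![1, l]))
      (fun l k => (an_pt' P hb (hs.hol _ (hO b x hb l ((h2 l).1 k)) _
        (h1 l hj hb))).differentiableAt.differentiableWithinAt) ((h2 l).2 hl)
    rw [show (fun a => cf a (fun l => s j (P.pt b x ![1, l])) * l ^ a) = _ from funext fun a => by
      rw [cf, mul_assoc, mul_comm _ (l ^ a), ← sub_zero l]]
    simpa only [smul_eq_mul] using h3

theorem van_sum {ι X : Type} {k : ℕ} {t : ι → X → ℂ} {a : Fin k → ℂ} {s : Fin k → ι → X → ℂ}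
    {j : ι} {p : X} (h : (t - ∑ i, a i • s i) j p = 0) : t j p = ∑ i, a i * s i j p := by
  simpa [sub_eq_zero] using h

end Co

open Vale.Agent.P281Z.St.Co in
theorem core_of (h1 : Gr.GR1) (h2 : GEN) (h3 : Pb.PBEX) (h4 : Pb.PSEX) : CORE := by
  intro n r V L B α hL hB hα h0
  obtain ⟨P⟩ := h3 n 1 (n + 1) V (vb hB) rfl
  obtain ⟨S⟩ := h4 (r + 1)
  obtain ⟨f, hf, f1, f2⟩ := map_ex P S hα h0
  obtain ⟨Q, hQ, hreg⟩ := h2 _ _ P.P S.P f Empty Empty.elim hf fun x =>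
    ⟨Empty.elim, fun l => l.elim, fun l => l.1.elim, fun _ _ => linearIndependent_empty_type⟩
  obtain ⟨T, ρ, hT, -, hU⟩ := h1 _ _ P.P S.P f (pull P.pr L) Q S.conn hf (P.hol.lb hL) hQ
    fun y hy x hx e he =>
      have k := hreg y hy x hx e he Empty.elim fun l => l.elim
      ⟨fun a => k.1 (.inr a), fun e' he' => (k.2 e' he').comp Sum.inr Sum.inr_injective⟩
  obtain ⟨U, k, s, hUo, hU0, hs, -, hsp⟩ := hU (af S 0)
  obtain ⟨g, g1, g2, g3⟩ := hT.nz (af S 0)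
  obtain ⟨ε, hε, hb⟩ := Metric.eventually_nhds_iff_ball.1
    ((af_cont S 0).eventually (g3.and (hUo.mem_nhds hU0)))
  obtain ⟨e, h, k1, k2, k3, k4⟩ := init (af_an S g1) fun k => g2 (af_ev S k)
  refine ⟨e, h, k1, k2, k3, fun τ hτ hh t ht => ?_⟩
  have k5 : ∀ᶠ l : ℂ in 𝓝 0, ‖l • τ‖ < ε :=
    (continuous_id.smul continuous_const).norm.continuousAt.eventually_lt continuousAt_const
      (by simpa)
  obtain ⟨l, ⟨l1, l2⟩, l3⟩ := (((k4 τ hh).and (k5.filter_mono nhdsWithin_le_nhds)).and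
    self_mem_nhdsWithin).exists
  have l4 := hb _ (mem_ball_zero_iff.2 l2)
  choose c c1 c2 using fun i => taylor P h0 hε (fun b x hx l hl => show f _ ∈ U by
    rw [f1 b x hx]; exact (hb _ (mem_ball_zero_iff.2 hl)).2) (hs i)
  have hF : Fi B α (l • τ) = Fi B α τ := Set.ext fun x => forall₂_congr fun b _ =>
    ⟨fun ⟨c, k⟩ => ⟨l⁻¹ * c, by rw [mul_smul, ← k, inv_smul_smul₀ l3]⟩,
      fun ⟨c, k⟩ => ⟨l * c, by rw [mul_smul, ← k]⟩⟩
  obtain ⟨m₀, hm⟩ := alg hL hB hα (smul_ne_zero l3 hτ)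
    (σ := fun i q => s i q.j (P.pt q.b q.x ![1, q.c])) c1
    (fun i q => c2 i q.j q.b q.x q.c q.hj q.hb (q.hc ▸ l2)) (fun t ht => by
      have k6 : ∀ p, f p = af S (l • τ) → P.pr p ∈ Fi B α (l • τ) := fun p hp => f2 p _ hp
      obtain ⟨a, ha⟩ := (hsp _ l4.2 fun k => l1 (l4.1 k)).1 (fun j p => t j (P.pr p)) fun p hp =>
        ⟨fun j hj =>
          let ⟨b, k7, k8⟩ := (ht _ (k6 p hp)).1 j hj
          ⟨fun p => b (P.pr p), P.hol.hol k7,
            (P.hol.cont.continuousAt.eventually k8).mono fun p' k k' => k (k6 p' k')⟩,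
          (ht _ (k6 p hp)).2⟩
      refine ⟨a, fun q => ?_⟩
      have k7 := ha (P.pt q.b q.x ![1, q.c]) (by
        show f _ = _
        rw [f1 _ _ q.hb, ← q.hc]) q.j (by
        show P.pr _ ∈ L.U q.j
        rw [P.pr_pt q.b q.x q.hb]
        exact q.hj)
      exact (congrArg (t q.j) (P.pr_pt q.b q.x q.hb _)).symm.trans (van_sum k7)) t (hF ▸ ht)
  refine ⟨m₀, fun m hm' => ?_⟩
  obtain ⟨u, u1, u2⟩ := hm m hm'
  refine ⟨fun a x => l ^ m * u a x, isSec_of (fun a x hx => (hol_const _ x).mul (sec_hol u1 hx))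
    fun a b x ha hb => by rw [u1.change a b x ha hb, mul_left_comm], fun x j b c hj hb hc => ?_⟩
  refine Eq.trans ?_ (u2 ⟨x, j, b, l * c, hj, hb, by rw [mul_smul, ← hc]⟩)
  show l ^ m * u (j, b) x * c ^ m = u (j, b) x * (l * c) ^ m
  ring

end Vale.Agent.P281Z.St
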