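import Vale.Agent.P281Z.St.Defs
import Vale.Agent.P281Z.Pb.Api
import Vale.Agent.P281Z.Sc.Bd

/-!
# P281Z, block START: the initial form and the closed space of the sections which extend
-/

open scoped Manifold ContDiff Topology
open Set Filter Metric
open Vale.Agent.P272.K Vale.Agent.P285.H281.FD
open Vale.Agent.P277Z (Hol Nz at_chart hol_const)

noncomputable section

namespace Vale.Agent.P281Z.St.Co

/-- the initial form -/
theorem init {E : Type} [NormedAddCommGroup E] [NormedSpace ℂ E] {H : E → ℂ}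
    (hH : AnalyticAt ℂ H 0) (h0 : ¬ ∀ᶠ v in 𝓝 (0 : E), H v = 0) :
    ∃ (e : ℕ) (h : E → ℂ), (∀ v, AnalyticAt ℂ h v) ∧ (∀ (c : ℂ) v, h (c • v) = c ^ e * h v) ∧
      (∃ v, h v ≠ 0) ∧ ∀ τ, h τ ≠ 0 → ∀ᶠ l in 𝓝[≠] (0 : ℂ), H (l • τ) ≠ 0 := by
  obtain ⟨pw, hp⟩ := hH
  obtain ⟨e, v, hv⟩ : ∃ e v, pw e (fun _ => v) ≠ 0 := by
    by_contra hc
    push Not at hc
    refine h0 (hp.eventually_hasSum.mono fun v k => ?_)
    simp only [hc, zero_add] at k
    exact k.unique hasSum_zero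
  refine ⟨e, fun v => pw e fun _ => v, fun v => ?_, fun c v => ?_, ⟨v, hv⟩, fun τ hτ => ?_⟩
  · exact ((pw e).analyticAt (x := fun _ => v)).comp (f := fun v : E => fun _ : Fin e => v)
      (AnalyticAt.pi fun _ => analyticAt_id)
  · have := (pw e).map_smul_univ (fun _ => c) fun _ => v
    simpa using this
  · let u : ℂ →L[ℂ] E := (ContinuousLinearMap.id ℂ ℂ).smulRight τ
    have h1 : HasFPowerSeriesAt (H ∘ u) (pw.compContinuousLinearMap u) 0 :=
      HasFPowerSeriesAt.compContinuousLinearMap (by rwa [map_zero])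
    refine h1.analyticAt.eventually_eq_zero_or_eventually_ne_zero.resolve_left fun k => hτ ?_
    have h2 := (h1.congr (g := 0) k).apply_eq_zero e 1
    rw [FormalMultilinearSeries.compContinuousLinearMap_apply] at h2
    rw [← h2]
    exact congrArg _ (funext fun _ => (one_smul ℂ τ).symm)

/-- a holomorphic function composed with an analytic map -/
theorem an_comp {N : ℕ} {P E : Type} [TopologicalSpace P] [ChartedSpace (Cm N) P]
    [IsManifold 𝓘(ℂ, Cm N) ω P] [NormedAddCommGroup E] [NormedSpace ℂ E] {Ψ : E → P} {q : E}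
    {a : P → ℂ} (ha : Hol N a (Ψ q)) (hc : ContinuousAt Ψ q)
    (h : AnalyticAt ℂ (fun q' => chartAt (Cm N) (Ψ q) (Ψ q')) q) :
    AnalyticAt ℂ (fun q => a (Ψ q)) q := by
  have he := at_chart (n := N) (Ψ q)
  refine ((ha _ he).fun_comp (f := fun q' => chartAt (Cm N) (Ψ q) (Ψ q')) h).congr ?_
  filter_upwards [hc.eventually (at_near he)] with q' k
  rw [k.left_inv]

variable {n r : ℕ} {V : Mf n} {L B : Bd V.X} {α : B.ι → V.X → Cm (r + 1)} {τ : Cm (r + 1)}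

variable (B α τ) in
/-- the fibre -/
def Fi : Set V.X := {x | ∀ b, x ∈ B.U b → ∃ c : ℂ, τ = c • α b x}

variable (L α τ) in
/-- the points of the fibre, with their frames -/
structure Ix where
  x : V.X
  j : L.ι
  b : B.ι
  c : ℂ
  hj : x ∈ L.U j
  hb : x ∈ B.U b
  hc : τ = c • α b x

variable (L α τ) in
/-- the functions on the fibre which extend -/
def Ex : Submodule ℂ (Ix L α τ → ℂ) where
  carrier := {u | ∃ m₀ : ℕ, ∀ m ≥ m₀, ∃ s : L.ι × B.ι → V.X → ℂ, IsSec n (L.mul (B.pow m)) s ∧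
    ∀ q : Ix L α τ, s (q.j, q.b) q.x * q.c ^ m = u q}
  add_mem' := by
    rintro u v ⟨m₁, h1⟩ ⟨m₂, h2⟩
    refine ⟨max m₁ m₂, fun m hm => ?_⟩
    obtain ⟨s, k1, k2⟩ := h1 m (le_of_max_le_left hm)
    obtain ⟨s', k3, k4⟩ := h2 m (le_of_max_le_right hm)
    exact ⟨fun a x => s a x + s' a x, isSec_of (fun a x hx => (sec_hol k1 hx).add (sec_hol k3 hx))
      fun a b x ha hb => by rw [k1.change a b x ha hb, k3.change a b x ha hb, mul_add],
      fun q => by rw [add_mul, k2, k4, Pi.add_apply]⟩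
  zero_mem' := ⟨0, fun _ _ => ⟨fun _ _ => 0, isSec_of (fun _ x _ => hol_const 0 x)
    fun _ _ _ _ _ => (mul_zero _).symm, fun _ => zero_mul _⟩⟩
  smul_mem' := by
    rintro c u ⟨m₀, h⟩
    refine ⟨m₀, fun m hm => ?_⟩
    obtain ⟨s, k1, k2⟩ := h m hm
    exact ⟨fun a x => c * s a x, isSec_of (fun a x hx => (hol_const c x).mul (sec_hol k1 hx))
      fun a b x ha hb => by rw [k1.change a b x ha hb, mul_left_comm],
      fun q => by rw [mul_assoc, k2, Pi.smul_apply, smul_eq_mul]⟩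

theorem al_chg (hα : ∀ l, IsSec n B fun b x => α b x l) {b b' : B.ι} {x : V.X} (hb : x ∈ B.U b)
    (hb' : x ∈ B.U b') : α b x = B.g b b' x • α b' x :=
  funext fun l => (hα l).change b b' x hb hb'

theorem sec_chg {m : ℕ} {s : L.ι × B.ι → V.X → ℂ} (hs : IsSec n (L.mul (B.pow m)) s)
    {j j' : L.ι} {b b' : B.ι} {x : V.X} (hj : x ∈ L.U j) (hj' : x ∈ L.U j') (hb : x ∈ B.U b)
    (hb' : x ∈ B.U b') : s (j, b) x = L.g j j' x * B.g b b' x ^ m * s (j', b') x :=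
  hs.change (j, b) (j', b') x ⟨hj, hb⟩ ⟨hj', hb'⟩

theorem mem_fi (hα : ∀ l, IsSec n B fun b x => α b x l) {b : B.ι} {x : V.X} {c : ℂ}
    (hb : x ∈ B.U b) (h : τ = c • α b x) : x ∈ Fi B α τ := fun b' hb' =>
  ⟨c * B.g b b' x, by rw [h, al_chg hα hb hb', smul_smul]⟩

/-- the terms of the Taylor series extend -/
theorem mem_ex (hα : ∀ l, IsSec n B fun b x => α b x l) (hτ : τ ≠ 0) {a : ℕ}
    {s : L.ι × B.ι → V.X → ℂ} (hs : IsSec n (L.mul (B.pow a)) s) :
    (fun q : Ix L α τ => s (q.j, q.b) q.x * q.c ^ a) ∈ Ex L α τ := by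
  obtain ⟨k, hk⟩ := Function.ne_iff.1 hτ
  refine ⟨a, fun m hm => ?_⟩
  obtain ⟨d, rfl⟩ := Nat.exists_eq_add_of_le hm
  refine ⟨fun i x => s i x * (α i.2 x k / τ k) ^ d, isSec_of (fun i x hx => (sec_hol hs hx).mul
    (((sec_hol (hα k) hx.2).mul (hol_const (τ k)⁻¹ x)).pow d)) fun i i' x hi hi' => ?_, fun q => ?_⟩
  · rw [hs.change i i' x hi hi', (hα k).change i.2 i'.2 x hi.2 hi'.2]
    simp only [Bd.mul, Bd.pow]
    ring
  · have h1 : α q.b q.x k / τ k * q.c = 1 := by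
      rw [div_mul_eq_mul_div, div_eq_one_iff_eq hk, congrFun q.hc k, mul_comm]
      rfl
    calc s (q.j, q.b) q.x * (α q.b q.x k / τ k) ^ d * q.c ^ (a + d)
        = s (q.j, q.b) q.x * q.c ^ a * (α q.b q.x k / τ k * q.c) ^ d := by ring
      _ = _ := by rw [h1, one_pow, mul_one]

/-- a function which extends is a section on the fibre -/
theorem ex_fsec (hL : IsLB n L) (hB : IsLB n B) (hα : ∀ l, IsSec n B fun b x => α b x l)
    (hτ : τ ≠ 0) {u : Ix L α τ → ℂ} (hu : u ∈ Ex L α τ) :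
    ∃ t ∈ Gr.FSec n L (Fi B α τ), ∀ q : Ix L α τ, u q = t q.j q.x := by
  obtain ⟨k, hk⟩ := Function.ne_iff.1 hτ
  obtain ⟨m, h⟩ := hu
  obtain ⟨s, h1, h2⟩ := h m le_rfl
  choose β hβ using hB.cover
  have h3 : ∀ j b x, x ∈ L.U j → x ∈ B.U b →
      s (j, β x) x * (τ k / α (β x) x k) ^ m = s (j, b) x * (τ k / α b x k) ^ m := by
    intro j b x hj hb
    have := hB.ne_zero _ b x (hβ x) hb
    rw [sec_chg h1 hj hj (hβ x) hb, (hα k).change _ b x (hβ x) hb, lb_self hL hj,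
      div_mul_eq_div_div_swap, div_pow]
    field_simp
  have h4 : ∀ {b x} {c : ℂ}, τ = c • α b x → α b x k ≠ 0 ∧ τ k / α b x k = c := fun {b x c} h => by
    have k1 : τ k = c * α b x k := congrFun h k
    have k2 : α b x k ≠ 0 := fun k2 => hk (by rw [k1, k2, mul_zero]; rfl)
    exact ⟨k2, by rw [k1, mul_div_cancel_right₀ _ k2]⟩
  refine ⟨fun j x => s (j, β x) x * (τ k / α (β x) x k) ^ m, fun x hx => ⟨fun j hj => ?_,
    fun j j' hj hj' => ?_⟩, fun q => by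
      beta_reduce
      rw [h3 _ _ _ q.hj q.hb, (h4 q.hc).2, h2]⟩
  · obtain ⟨c, hc⟩ := hx _ (hβ x)
    refine ⟨fun y => s (j, β x) y * (τ k / α (β x) y k) ^ m, (sec_hol h1 ⟨hj, hβ x⟩).mul
      (((hol_const _ x).div (sec_hol (hα k) (hβ x)) (h4 hc).1).pow m), ?_⟩
    filter_upwards [lb_near hL hj, lb_near hB (hβ x)] with y k1 k2 _ using h3 j _ y k1 k2
  · beta_reduce
    rw [sec_chg h1 hj hj' (hβ x) (hβ x), lb_self hB (hβ x)]
    ring

/-- finitely many generators which are sums of power series -/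
theorem alg (hL : IsLB n L) (hB : IsLB n B) (hα : ∀ l, IsSec n B fun b x => α b x l) (hτ : τ ≠ 0)
    {k : ℕ} {σ : Fin k → Ix L α τ → ℂ} {c : Fin k → ℕ → L.ι × B.ι → V.X → ℂ}
    (hc : ∀ i a, IsSec n (L.mul (B.pow a)) (c i a))
    (hσ : ∀ i q, HasSum (fun a => c i a (q.j, q.b) q.x * q.c ^ a) (σ i q))
    (key : ∀ t ∈ Gr.FSec n L (Fi B α τ), ∃ a : Fin k → ℂ, ∀ q : Ix L α τ,
      t q.j q.x = ∑ i, a i * σ i q) :
    ∀ t ∈ Gr.FSec n L (Fi B α τ), (fun q : Ix L α τ => t q.j q.x) ∈ Ex L α τ := by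
  have h1 : ∀ t ∈ Gr.FSec n L (Fi B α τ), ∃ a : Fin k → ℂ,
      (fun q : Ix L α τ => t q.j q.x) = ∑ i, a i • σ i := fun t ht =>
    (key t ht).imp fun a ha => funext fun q => by
      rw [ha q, Finset.sum_apply]
      rfl
  have h2 : Ex L α τ ≤ Submodule.span ℂ (range σ) := fun u hu => by
    obtain ⟨t, k1, k2⟩ := ex_fsec hL hB hα hτ hu
    obtain ⟨a, ha⟩ := h1 t k1
    rw [show u = _ from (funext k2).trans ha]
    exact Submodule.sum_mem _ fun i _ => Submodule.smul_mem _ _ (Submodule.subset_span ⟨i, rfl⟩)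
  have h3 : FiniteDimensional ℂ (Submodule.span ℂ (range σ)) :=
    FiniteDimensional.span_of_finite ℂ (finite_range σ)
  have h4 : FiniteDimensional ℂ (Ex L α τ) := Submodule.finiteDimensional_of_le h2
  have h5 : ∀ i, σ i ∈ Ex L α τ := fun i =>
    (Ex L α τ).closed_of_finiteDimensional.mem_of_tendsto (Pi.hasSum.2 (hσ i)).tendsto_sum_nat
      (.of_forall fun m => Submodule.sum_mem _ fun a _ => mem_ex hα hτ (hc i a))
  intro t ht
  obtain ⟨a, ha⟩ := h1 t ht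
  rw [ha]
  exact Submodule.sum_mem _ fun i _ => Submodule.smul_mem _ _ (h5 i)

end Vale.Agent.P281Z.St.Co
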