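import Vale.Agent.P281Z.Gr.Sk
import Vale.Agent.P281Z.Pb.Defs

/-!
# P281Z, block START: statements
-/

open scoped Manifold ContDiff Topology
open Set Filter
open Vale.Agent.P272.K Vale.Agent.P285.H281.FD

noncomputable section

namespace Vale.Agent.P281Z.St

/-- **PRJ**: a generically finite map to the projective space of the same dimension -/
def PRJ : Prop :=
  ∀ (r : ℕ) (Z : Mf r) (A : Bd Z.X), Nonempty Z.X → IsLB r A → Pos r A →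
    ∃ (k : ℕ) (α : A.ι → Z.X → Cm (r + 1)), 1 ≤ k ∧ (∀ l, IsSec r (A.pow k) fun b z => α b z l) ∧
      (∀ b, ∀ z ∈ A.U b, α b z ≠ 0) ∧ ∀ (S : PS r) (ψ : Z.X → S.P.X),
        (∀ b, ∀ z ∈ A.U b, ψ z = S.pt (α b z)) → ∃ z, Imm r r ψ z

/-- **CORE**: extension from the general fibres of a map to the projective space -/
def CORE : Prop :=
  ∀ (n r : ℕ) (V : Mf n) (L B : Bd V.X) (α : B.ι → V.X → Cm (r + 1)), IsLB n L → IsLB n B →
    (∀ l, IsSec n B fun b x => α b x l) → (∀ b, ∀ x ∈ B.U b, α b x ≠ 0) →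
    ∃ (e : ℕ) (h : Cm (r + 1) → ℂ), (∀ v, AnalyticAt ℂ h v) ∧
      (∀ (c : ℂ) v, h (c • v) = c ^ e * h v) ∧ (∃ v, h v ≠ 0) ∧ ∀ τ, τ ≠ 0 → h τ ≠ 0 →
      ∀ t ∈ Gr.FSec n L {x | ∀ b, x ∈ B.U b → ∃ c : ℂ, τ = c • α b x}, ∃ m₀ : ℕ, ∀ m ≥ m₀,
        ∃ s, IsSec n (L.mul (B.pow m)) s ∧ ∀ x j b (c : ℂ), x ∈ L.U j → x ∈ B.U b →
          τ = c • α b x → s (j, b) x * c ^ m = t j x

/-- **FINS** -/
def FINS : Prop := PRJ → CORE → Pb.PSEX → GEN → Gr.EMBF → START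

end Vale.Agent.P281Z.St
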